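import Vale.Agent.P159.TM.H459.Tor

/-!
P159, T1 (helper459): the blocks of side `l` of the torus `ZMod N × ZMod N`, `N = n * l`, indexed by
`ZMod n × ZMod n`.
-/

open Finset

set_option linter.unusedSectionVars false

namespace Vale.Agent.P159.TM.H459

open Vale.Agent.P159.TM.H60

section blocks
variable {N n : ℕ} [NeZero N] [NeZero n]

/-- the block of a coordinate -/
def bk1 (n l : ℕ) (a : ZMod N) : ZMod n := ((a.val / l : ℕ) : ZMod n)

/-- the block of a site -/
def bk (n l : ℕ) (z : ZMod N × ZMod N) : ZMod n × ZMod n := (bk1 n l z.1, bk1 n l z.2)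

lemma vma_le_of_eq {n : ℕ} [NeZero n] (a : ZMod n) (j : ℤ) (h : a = (j : ZMod n)) :
    a.valMinAbs.natAbs ≤ j.natAbs := by
  apply ZMod.natAbs_min_of_le_div_two n
  · rw [ZMod.coe_valMinAbs, h]
  · exact ZMod.natAbs_valMinAbs_le a

lemma val_sub_eq (a b : ZMod N) : ∃ t : ℤ, (a.val : ℤ) - b.val = (a - b).valMinAbs + t * N := by
  have h : (((a.val : ℤ) - b.val : ℤ) : ZMod N) = (((a - b).valMinAbs : ℤ) : ZMod N) := by
    rw [ZMod.coe_valMinAbs]
    push_cast
    rw [ZMod.natCast_zmod_val, ZMod.natCast_zmod_val]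
  rw [ZMod.intCast_eq_intCast_iff_dvd_sub] at h
  obtain ⟨t, ht⟩ := h
  exact ⟨-t, by linarith [mul_comm (N : ℤ) t]⟩

lemma natAbs_sub_mod {l : ℕ} (hl : 0 < l) (a b : ℕ) :
    ((a % l : ℕ) : ℤ) - ((b % l : ℕ) : ℤ) ≤ l - 1 ∧ ((b % l : ℕ) : ℤ) - ((a % l : ℕ) : ℤ) ≤ l - 1 := by
  have h1 := Nat.mod_lt a hl
  have h2 := Nat.mod_lt b hl
  omega

/-- block distance against distance, one coordinate -/
lemma bk1_le {l : ℕ} (hl : 0 < l) (hN : N = n * l) (a b : ZMod N) :
    l * (bk1 n l a - bk1 n l b).valMinAbs.natAbs ≤ (a - b).valMinAbs.natAbs + (l - 1) := by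
  obtain ⟨t, ht⟩ := val_sub_eq a b
  set k := (a - b).valMinAbs with hk
  have ha : (a.val : ℤ) = l * ((a.val / l : ℕ) : ℤ) + ((a.val % l : ℕ) : ℤ) := by
    exact_mod_cast (Nat.div_add_mod a.val l).symm
  have hb : (b.val : ℤ) = l * ((b.val / l : ℕ) : ℤ) + ((b.val % l : ℕ) : ℤ) := by
    exact_mod_cast (Nat.div_add_mod b.val l).symm
  set j : ℤ := ((a.val / l : ℕ) : ℤ) - ((b.val / l : ℕ) : ℤ) - t * n with hj
  have h1 : bk1 n l a - bk1 n l b = (j : ZMod n) := by
    unfold bk1
    rw [hj, Int.cast_sub, Int.cast_sub, Int.cast_mul, Int.cast_natCast, Int.cast_natCast,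
      Int.cast_natCast, ZMod.natCast_self, mul_zero, sub_zero]
  have h2 := vma_le_of_eq _ j h1
  have h3 : (l : ℤ) * j = k - (((a.val % l : ℕ) : ℤ) - ((b.val % l : ℕ) : ℤ)) := by
    have hN' : (N : ℤ) = n * l := by exact_mod_cast hN
    rw [hN'] at ht
    rw [hj]
    linear_combination ht - ha + hb
  have h4 := natAbs_sub_mod hl a.val b.val
  have h5 : (l : ℤ) * |j| ≤ |k| + (l - 1) := by
    have h6 : (l : ℤ) * |j| = |(l : ℤ) * j| := by
      rw [abs_mul, abs_of_nonneg (by positivity : (0 : ℤ) ≤ (l : ℤ))]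
    rw [h6, h3]
    have h7 : |((a.val % l : ℕ) : ℤ) - ((b.val % l : ℕ) : ℤ)| ≤ l - 1 := abs_le.2 ⟨by linarith, h4.1⟩
    have h8 := abs_sub k (((a.val % l : ℕ) : ℤ) - ((b.val % l : ℕ) : ℤ))
    linarith
  have h7 : l * j.natAbs ≤ k.natAbs + (l - 1) := by
    zify [hl]
    exact h5
  exact (Nat.mul_le_mul_left l h2).trans h7

/-- distance against block distance, one coordinate -/
lemma le_bk1 {l : ℕ} (hl : 0 < l) (hN : N = n * l) (a b : ZMod N) :
    (a - b).valMinAbs.natAbs ≤ l * (bk1 n l a - bk1 n l b).valMinAbs.natAbs + (l - 1) := by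
  set j := (bk1 n l a - bk1 n l b).valMinAbs with hj
  have h0 : ((((a.val / l : ℕ) : ℤ) - ((b.val / l : ℕ) : ℤ) : ℤ) : ZMod n) = (j : ZMod n) := by
    rw [hj, ZMod.coe_valMinAbs]
    unfold bk1
    rw [Int.cast_sub, Int.cast_natCast, Int.cast_natCast]
  rw [ZMod.intCast_eq_intCast_iff_dvd_sub] at h0
  obtain ⟨t, ht⟩ := h0
  have ha : (a.val : ℤ) = l * ((a.val / l : ℕ) : ℤ) + ((a.val % l : ℕ) : ℤ) := by
    exact_mod_cast (Nat.div_add_mod a.val l).symm
  have hb : (b.val : ℤ) = l * ((b.val / l : ℕ) : ℤ) + ((b.val % l : ℕ) : ℤ) := by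
    exact_mod_cast (Nat.div_add_mod b.val l).symm
  set i : ℤ := l * j + (((a.val % l : ℕ) : ℤ) - ((b.val % l : ℕ) : ℤ)) with hi
  have h1 : a - b = (i : ZMod N) := by
    have h2 : (a.val : ℤ) - b.val = i + (-t) * N := by
      have hN' : (N : ℤ) = n * l := by exact_mod_cast hN
      rw [hN', hi]
      linear_combination ha - hb - l * ht
    have h3 : (((a.val : ℤ) - b.val : ℤ) : ZMod N) = a - b := by
      push_cast
      rw [ZMod.natCast_zmod_val, ZMod.natCast_zmod_val]
    rw [← h3, h2]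
    push_cast
    simp
  have h2 := vma_le_of_eq _ i h1
  refine h2.trans ?_
  have h4 := natAbs_sub_mod hl a.val b.val
  have h5 : |i| ≤ (l : ℤ) * |j| + (l - 1) := by
    rw [hi]
    refine (abs_add_le _ _).trans ?_
    have h6 : (l : ℤ) * |j| = |(l : ℤ) * j| := by
      rw [abs_mul, abs_of_nonneg (by positivity : (0 : ℤ) ≤ (l : ℤ))]
    rw [h6]
    have h7 : |((a.val % l : ℕ) : ℤ) - ((b.val % l : ℕ) : ℤ)| ≤ l - 1 := abs_le.2 ⟨by linarith, h4.1⟩
    linarith
  zify [hl]
  exact h5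

/-- **block distance against distance** -/
theorem bk_le {l : ℕ} (hl : 0 < l) (hN : N = n * l) (z w : ZMod N × ZMod N) :
    l * sd (bk n l z) (bk n l w) ≤ sd z w + (l - 1) := by
  unfold sd sn bk
  simp only [Prod.fst_sub, Prod.snd_sub]
  have h1 := bk1_le hl hN w.1 z.1
  have h2 := bk1_le hl hN w.2 z.2
  rcases max_choice (bk1 n l w.1 - bk1 n l z.1).valMinAbs.natAbs
    (bk1 n l w.2 - bk1 n l z.2).valMinAbs.natAbs with h | h
  · rw [h]
    exact h1.trans (Nat.add_le_add_right (le_max_left _ _) _)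
  · rw [h]
    exact h2.trans (Nat.add_le_add_right (le_max_right _ _) _)

/-- **distance against block distance** -/
theorem le_bk {l : ℕ} (hl : 0 < l) (hN : N = n * l) (z w : ZMod N × ZMod N) :
    sd z w ≤ l * sd (bk n l z) (bk n l w) + (l - 1) := by
  unfold sd sn bk
  simp only [Prod.fst_sub, Prod.snd_sub]
  have h1 := le_bk1 hl hN w.1 z.1
  have h2 := le_bk1 hl hN w.2 z.2
  refine max_le (h1.trans (Nat.add_le_add_right (Nat.mul_le_mul_left l (le_max_left _ _)) _))
    (h2.trans (Nat.add_le_add_right (Nat.mul_le_mul_left l (le_max_right _ _)) _))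

/-- the sites of a block -/
def blk (N n l : ℕ) [NeZero N] (b : ZMod n × ZMod n) : Finset (ZMod N × ZMod N) :=
  univ.filter fun z => bk n l z = b

lemma mem_blk {l : ℕ} {b : ZMod n × ZMod n} {z : ZMod N × ZMod N} :
    z ∈ blk N n l b ↔ bk n l z = b := by
  simp [blk]

/-- neighbours lie in the same block or in blocks at distance one -/
lemma bk_edge {l : ℕ} (hl : 0 < l) (hN : N = n * l) {z w : ZMod N × ZMod N} (h : sd z w ≤ 1) :
    sd (bk n l z) (bk n l w) ≤ 1 := by
  have h1 := bk_le (n := n) hl hN z w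
  by_contra h2
  have h3 : 2 ≤ sd (bk n l z) (bk n l w) := by omega
  have h4 := Nat.mul_le_mul_left l h3
  omega

/-- **a connected set meets blocks at all intermediate distances** -/
theorem exists_blk_at {l : ℕ} (hl : 0 < l) (hN : N = n * l)
    {T : Finset ((ZMod N × ZMod N) × Bool)} {b : ZMod n × ZMod n} {p q : ZMod N × ZMod N}
    (h : Conn tS tT T p q) {k : ℕ} (hp : sd b (bk n l p) ≤ k) (hq : k ≤ sd b (bk n l q)) :
    ∃ z, Conn tS tT T p z ∧ sd b (bk n l z) = k := by
  unfold Conn at h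
  induction h with
  | refl => exact ⟨p, Relation.ReflTransGen.refl, le_antisymm hp hq⟩
  | @tail y z h1 h2 ih =>
    rcases Nat.lt_or_ge (sd b (bk n l y)) k with h3 | h3
    · refine ⟨z, Relation.ReflTransGen.tail h1 h2, ?_⟩
      have h4 := sd_tri b (bk n l y) (bk n l z)
      have h5 := bk_edge (n := n) hl hN (sd_adj h2)
      omega
    · exact ih h3

/-- the number of blocks near `b` met by a cluster which joins `b` to a block at distance `≥ R` -/
theorem card_vis_ge {l : ℕ} (hl : 0 < l) (hN : N = n * l)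
    {T : Finset ((ZMod N × ZMod N) × Bool)} {b : ZMod n × ZMod n} {u p q : ZMod N × ZMod N}
    (hp : p ∈ clus tS tT T u) (hpb : bk n l p = b) (hq : q ∈ clus tS tT T u) {R : ℕ}
    (hqR : R ≤ sd b (bk n l q)) :
    R + 1 ≤ ((ball b R).filter fun β => ∃ z ∈ clus tS tT T u, bk n l z = β).card := by
  classical
  have hpq : Conn tS tT T p q := (mem_clus.1 hp).symm.trans (mem_clus.1 hq)
  have hall : ∀ k ∈ Finset.range (R + 1), ∃ z ∈ clus tS tT T u, sd b (bk n l z) = k := by
    intro k hk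
    rw [Finset.mem_range] at hk
    obtain ⟨z, hz, hzk⟩ := exists_blk_at (n := n) hl hN hpq (k := k) (b := b)
      (by rw [hpb, sd_self]; omega) (by omega)
    exact ⟨z, mem_clus.2 ((mem_clus.1 hp).trans hz), hzk⟩
  have h1 : Finset.range (R + 1) ⊆
      ((ball b R).filter fun β => ∃ z ∈ clus tS tT T u, bk n l z = β).image fun β => sd b β := by
    intro k hk
    obtain ⟨z, hz, hzk⟩ := hall k hk
    rw [Finset.mem_image]
    refine ⟨bk n l z, ?_, hzk⟩
    rw [Finset.mem_filter, mem_ball]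
    rw [Finset.mem_range] at hk
    exact ⟨by omega, z, hz, rfl⟩
  have h2 := Finset.card_le_card h1
  rw [Finset.card_range] at h2
  exact h2.trans Finset.card_image_le

/-- a block lies in the ball of radius `l - 1` around each of its points -/
lemma sd_of_bk_eq {l : ℕ} (hl : 0 < l) (hN : N = n * l) {z w : ZMod N × ZMod N}
    (h : bk n l z = bk n l w) : sd z w ≤ l - 1 := by
  have h1 := le_bk (n := n) hl hN z w
  rw [h, sd_self, mul_zero, zero_add] at h1
  exact h1

/-- **a cluster which meets `b₀`, a block `β`, and a block at distance `≥ R` from `b₀` meets the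
ball of radius `l - 1` around any point `c` of `β` and leaves the ball of radius `r`** -/
theorem leaves {l : ℕ} (hl : 0 < l) (hN : N = n * l) {b : ZMod n × ZMod n}
    {c p q : ZMod N × ZMod N} (hpb : bk n l p = b) {R r : ℕ} (hqR : R ≤ sd b (bk n l q))
    (hr : 2 * r + l ≤ l * R) : p ∉ ball c r ∨ q ∉ ball c r := by
  by_contra hcon
  rw [not_or, not_not, not_not, mem_ball, mem_ball] at hcon
  have h1 := sd_tri p c q
  rw [sd_symm p c] at h1
  have h2 := bk_le (n := n) hl hN p q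
  rw [hpb] at h2
  have h3 := Nat.mul_le_mul_left l hqR
  omega

end blocks

end Vale.Agent.P159.TM.H459
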