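import Vale.Agent.P159.TM.H459.Ev

/-!
P159, T1 (helper459): geometry of the torus `ZMod N × ZMod N` with the sup norm of `valMinAbs`.
-/

open Finset

set_option linter.unusedSectionVars false

namespace Vale.Agent.P159.TM.H459

open Vale.Agent.P159.TM.H60

section torus
variable {N : ℕ} [NeZero N]

/-- sup norm on the torus -/
def sn (z : ZMod N × ZMod N) : ℕ := max z.1.valMinAbs.natAbs z.2.valMinAbs.natAbs

/-- sup distance on the torus -/
def sd (x z : ZMod N × ZMod N) : ℕ := sn (z - x)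

lemma vma_add_le (a b : ZMod N) :
    (a + b).valMinAbs.natAbs ≤ a.valMinAbs.natAbs + b.valMinAbs.natAbs :=
  (ZMod.natAbs_valMinAbs_add_le a b).trans (Int.natAbs_add_le _ _)

lemma sn_zero : sn (0 : ZMod N × ZMod N) = 0 := by
  simp [sn]

lemma sn_neg (z : ZMod N × ZMod N) : sn (-z) = sn z := by
  simp only [sn, Prod.fst_neg, Prod.snd_neg, ZMod.natAbs_valMinAbs_neg]

lemma sn_add_le (z w : ZMod N × ZMod N) : sn (z + w) ≤ sn z + sn w := by
  unfold sn
  have h1 := vma_add_le z.1 w.1
  have h2 := vma_add_le z.2 w.2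
  simp only [Prod.fst_add, Prod.snd_add]
  omega

lemma sd_self (x : ZMod N × ZMod N) : sd x x = 0 := by
  unfold sd
  rw [sub_self, sn_zero]

lemma sd_symm (x z : ZMod N × ZMod N) : sd x z = sd z x := by
  unfold sd
  rw [← sn_neg, neg_sub]

lemma sd_tri (x z w : ZMod N × ZMod N) : sd x w ≤ sd x z + sd z w := by
  unfold sd
  have h := sn_add_le (z - x) (w - z)
  have e : z - x + (w - z) = w - x := by ring
  rwa [e] at h

lemma vma_one_le : (1 : ZMod N).valMinAbs.natAbs ≤ 1 := by
  rcases Nat.lt_or_ge 1 N with h | h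
  · have h1 : ((1 : ℕ) : ZMod N).valMinAbs = (1 : ℕ) :=
      ZMod.valMinAbs_natCast_of_le_half (by omega)
    rw [Nat.cast_one] at h1
    rw [h1]
    simp
  · have hN : N = 1 := by
      have := NeZero.ne N
      omega
    have h2 := ZMod.natAbs_valMinAbs_le (1 : ZMod N)
    subst hN
    omega

/-- the two directions -/
def dir (N : ℕ) (c : Bool) : ZMod N × ZMod N := if c then (1, 0) else (0, 1)

lemma sn_dir (c : Bool) : sn (dir N c) ≤ 1 := by
  unfold sn dir
  have h := vma_one_le (N := N)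
  cases c <;> simp [h]

/-- the start of the edge `(x, c)` -/
def tS (e : (ZMod N × ZMod N) × Bool) : ZMod N × ZMod N := e.1

/-- the end of the edge `(x, c)` -/
def tT (e : (ZMod N × ZMod N) × Bool) : ZMod N × ZMod N := e.1 + dir N e.2

lemma sd_edge (e : (ZMod N × ZMod N) × Bool) : sd (tS e) (tT e) ≤ 1 := by
  unfold sd tS tT
  rw [add_sub_cancel_left]
  exact sn_dir e.2

lemma sd_adj {T : Finset ((ZMod N × ZMod N) × Bool)} {y z : ZMod N × ZMod N}
    (h : Adj tS tT T y z) : sd y z ≤ 1 := by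
  obtain ⟨e, _, h | h⟩ := h
  · rw [← h.1, ← h.2]
    exact sd_edge e
  · rw [← h.1, ← h.2, sd_symm]
    exact sd_edge e

/-- the ball of radius `r` -/
def ball (x : ZMod N × ZMod N) (r : ℕ) : Finset (ZMod N × ZMod N) :=
  univ.filter fun z => sd x z ≤ r

lemma mem_ball {x z : ZMod N × ZMod N} {r : ℕ} : z ∈ ball x r ↔ sd x z ≤ r := by
  simp [ball]

lemma ball_mono {x : ZMod N × ZMod N} {r r' : ℕ} (h : r ≤ r') : ball x r ⊆ ball x r' := by
  intro z hz
  rw [mem_ball] at hz ⊢
  exact hz.trans h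

lemma card_ball_le (x : ZMod N × ZMod N) (r : ℕ) : (ball x r).card ≤ (2 * r + 1) ^ 2 := by
  classical
  have h1 : (ball x r).card ≤
      (Finset.Icc (-(r : ℤ)) r ×ˢ Finset.Icc (-(r : ℤ)) r).card := by
    refine Finset.card_le_card_of_injOn
      (fun z => ((z - x).1.valMinAbs, (z - x).2.valMinAbs)) ?_ ?_
    · intro z hz
      have hz' := mem_ball.1 (Finset.mem_coe.1 hz)
      unfold sd sn at hz'
      simp only [Finset.coe_product, Finset.coe_Icc, Set.mem_prod, Set.mem_Icc]
      omega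
    · intro z _ w _ h
      simp only [Prod.mk.injEq] at h
      have h2 := ZMod.injective_valMinAbs h.1
      have h3 := ZMod.injective_valMinAbs h.2
      have h4 : z - x = w - x := Prod.ext h2 h3
      exact sub_left_injective h4
  refine h1.trans ?_
  rw [Finset.card_product, Int.card_Icc]
  have h5 : ((r : ℤ) + 1 - -(r : ℤ)).toNat = 2 * r + 1 := by omega
  rw [h5, sq]

/-- number of edges with an end in a ball -/
theorem card_edges_le (x : ZMod N × ZMod N) {ρ : ℝ} (hρ : 1 ≤ ρ) :
    ((univ.filter fun e : (ZMod N × ZMod N) × Bool =>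
      (sd x (tS e) : ℝ) < ρ ∨ (sd x (tT e) : ℝ) < ρ).card : ℝ) ≤ 50 * ρ ^ 2 := by
  classical
  set r : ℕ := ⌊ρ⌋₊ with hr
  have hrρ : (r : ℝ) ≤ ρ := Nat.floor_le (by linarith)
  have h1 : (univ.filter fun e : (ZMod N × ZMod N) × Bool =>
      (sd x (tS e) : ℝ) < ρ ∨ (sd x (tT e) : ℝ) < ρ) ⊆ ball x (r + 1) ×ˢ (univ : Finset Bool) := by
    intro e he
    rw [Finset.mem_filter] at he
    rw [Finset.mem_product]
    refine ⟨?_, Finset.mem_univ _⟩
    rw [mem_ball]
    rcases he.2 with h2 | h2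
    · have h3 : sd x (tS e) ≤ r := Nat.le_floor h2.le
      exact h3.trans (Nat.le_succ r)
    · have h3 : sd x (tT e) ≤ r := Nat.le_floor h2.le
      have h4 := sd_tri x (tT e) (tS e)
      have h5 := sd_edge e
      rw [sd_symm] at h5
      have h6 : sd x e.1 = sd x (tS e) := rfl
      omega
  have h2 := Finset.card_le_card h1
  rw [Finset.card_product, Finset.card_univ, Fintype.card_bool] at h2
  have h3 := card_ball_le x (r + 1)
  have h4 : ((univ.filter fun e : (ZMod N × ZMod N) × Bool =>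
      (sd x (tS e) : ℝ) < ρ ∨ (sd x (tT e) : ℝ) < ρ).card) ≤ (2 * (r + 1) + 1) ^ 2 * 2 :=
    h2.trans (Nat.mul_le_mul_right 2 h3)
  have h5 : ((univ.filter fun e : (ZMod N × ZMod N) × Bool =>
      (sd x (tS e) : ℝ) < ρ ∨ (sd x (tT e) : ℝ) < ρ).card : ℝ) ≤
        ((2 * (r + 1) + 1) ^ 2 * 2 : ℕ) := by exact_mod_cast h4
  refine h5.trans ?_
  push_cast
  nlinarith

/-- along a chain of neighbours the distance takes all intermediate values -/
theorem exists_at_dist {T : Finset ((ZMod N × ZMod N) × Bool)} {x p q : ZMod N × ZMod N}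
    (h : Conn tS tT T p q) {k : ℕ} (hp : sd x p ≤ k) (hq : k ≤ sd x q) :
    ∃ z, Conn tS tT T p z ∧ sd x z = k := by
  unfold Conn at h
  induction h with
  | refl => exact ⟨p, Relation.ReflTransGen.refl, le_antisymm hp hq⟩
  | @tail y z h1 h2 ih =>
    rcases Nat.lt_or_ge (sd x y) k with h3 | h3
    · refine ⟨z, Relation.ReflTransGen.tail h1 h2, ?_⟩
      have h4 := sd_tri x y z
      have h5 := sd_adj h2
      omega
    · exact ih h3

end torus

end Vale.Agent.P159.TM.H459
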