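import Vale.Agent.P159.TM.H459.Blocks
import Vale.Agent.P159.TM.H857.Boot
import Vale.Agent.P159.TM.Spec.C

/-!
P159, T1 (helper459): the Euclidean norm `tn` of the torus against the sup norm `sn`; the metric
data for the bootstrap of part B.
-/

open Finset

set_option linter.unusedSectionVars false

namespace Vale.Agent.P159.TM.H459

open Vale.Agent.P159.TM.H859 Vale.Agent.P159.TM.SpecC Vale.Agent.P159.TM.H857

section
variable {N : ℕ} [NeZero N]

lemma tn_sq (z : ZMod N × ZMod N) :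
    tn z ^ 2 = (z.1.valMinAbs : ℝ) ^ 2 + (z.2.valMinAbs : ℝ) ^ 2 := by
  unfold tn
  rw [nz_sq]
  rfl

lemma sn_cast (z : ZMod N × ZMod N) :
    (sn z : ℝ) = max |(z.1.valMinAbs : ℝ)| |(z.2.valMinAbs : ℝ)| := by
  unfold sn
  rw [Nat.cast_max]
  have h : ∀ k : ℤ, ((k.natAbs : ℕ) : ℝ) = |(k : ℝ)| := fun k => by
    rw [Nat.cast_natAbs, Int.cast_abs]
  rw [h, h]

lemma sn_le_tn (z : ZMod N × ZMod N) : (sn z : ℝ) ≤ tn z := by
  have h0 := tn_nonneg z
  have h1 := tn_sq z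
  rw [sn_cast]
  refine max_le ?_ ?_
  · refine abs_le_of_sq_le_sq ?_ h0
    rw [h1]
    nlinarith [sq_nonneg (z.2.valMinAbs : ℝ)]
  · refine abs_le_of_sq_le_sq ?_ h0
    rw [h1]
    nlinarith [sq_nonneg (z.1.valMinAbs : ℝ)]

lemma tn_le_sn (z : ZMod N × ZMod N) : tn z ≤ 2 * sn z := by
  have h0 := tn_nonneg z
  have h1 := tn_sq z
  have h2 := sn_cast z
  have h3 : |(z.1.valMinAbs : ℝ)| ≤ sn z := by rw [h2]; exact le_max_left _ _
  have h4 : |(z.2.valMinAbs : ℝ)| ≤ sn z := by rw [h2]; exact le_max_right _ _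
  have h5 : (z.1.valMinAbs : ℝ) ^ 2 ≤ (sn z : ℝ) ^ 2 := by
    rw [← sq_abs]
    exact pow_le_pow_left₀ (abs_nonneg _) h3 2
  have h6 : (z.2.valMinAbs : ℝ) ^ 2 ≤ (sn z : ℝ) ^ 2 := by
    rw [← sq_abs]
    exact pow_le_pow_left₀ (abs_nonneg _) h4 2
  have h7 : tn z ^ 2 ≤ (2 * (sn z : ℝ)) ^ 2 := by
    rw [h1]
    nlinarith [sq_nonneg (sn z : ℝ)]
  exact (abs_le_of_sq_le_sq' h7 (by positivity)).2

/-- the Euclidean distance of the torus -/
noncomputable def dT (x y : ZMod N × ZMod N) : ℝ := tn (x - y)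

lemma dT_nonneg (x y : ZMod N × ZMod N) : 0 ≤ dT x y := tn_nonneg _

lemma dT_symm (x y : ZMod N × ZMod N) : dT x y = dT y x := by
  unfold dT
  rw [← tn_neg, neg_sub]

lemma dT_tri (x z w : ZMod N × ZMod N) : dT x w ≤ dT x z + dT z w := by
  unfold dT
  have h := tn_add_le (x - z) (z - w)
  rwa [sub_add_sub_cancel] at h

lemma sd_le_dT (x y : ZMod N × ZMod N) : (sd x y : ℝ) ≤ dT x y := by
  rw [dT_symm]
  exact sn_le_tn _

lemma dT_le_sd (x y : ZMod N × ZMod N) : dT x y ≤ 2 * sd x y := by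
  rw [dT_symm]
  exact tn_le_sn _

lemma dT_edge (e : (ZMod N × ZMod N) × Bool) : dT (tS e) (tT e) ≤ 1 := by
  unfold dT tS tT
  have h : e.1 - (e.1 + dir N e.2) = -dir N e.2 := by ring
  rw [h, tn_neg]
  have h1 := tn_sq (dir N e.2)
  have h2 := vma_one_le (N := N)
  have h3 : (((1 : ZMod N).valMinAbs : ℤ) : ℝ) ^ 2 ≤ 1 := by
    have h4 : |(((1 : ZMod N).valMinAbs : ℤ) : ℝ)| ≤ 1 := by
      rw [← Int.cast_abs, Int.abs_eq_natAbs]
      exact_mod_cast h2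
    rw [← sq_abs]
    exact pow_le_one₀ (abs_nonneg _) h4
  have h4 : tn (dir N e.2) ^ 2 ≤ 1 := by
    rw [h1]
    unfold dir
    cases e.2 <;> simp <;> simpa using h3
  have h5 := tn_nonneg (dir N e.2)
  nlinarith

lemma lip_iff {L : ℝ} {f : ZMod N × ZMod N → ℝ} : Lip dT L f ↔ LipT L f := Iff.rfl

/-- the number of edges with an end in a Euclidean ball -/
theorem card_edges_dT (x : ZMod N × ZMod N) {ρ : ℝ} (hρ : 1 ≤ ρ) :
    ((univ.filter fun e : (ZMod N × ZMod N) × Bool =>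
      dT x (tS e) < ρ ∨ dT x (tT e) < ρ).card : ℝ) ≤ 50 * ρ ^ 2 := by
  classical
  refine le_trans ?_ (card_edges_le x hρ)
  have h : (univ.filter fun e : (ZMod N × ZMod N) × Bool =>
      dT x (tS e) < ρ ∨ dT x (tT e) < ρ) ⊆
      (univ.filter fun e : (ZMod N × ZMod N) × Bool =>
      (sd x (tS e) : ℝ) < ρ ∨ (sd x (tT e) : ℝ) < ρ) := by
    intro e he
    rw [Finset.mem_filter] at he ⊢
    refine ⟨he.1, he.2.imp (fun h => ?_) fun h => ?_⟩
    · exact lt_of_le_of_lt (sd_le_dT _ _) h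
    · exact lt_of_le_of_lt (sd_le_dT _ _) h
  exact_mod_cast Finset.card_le_card h

end

end Vale.Agent.P159.TM.H459
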