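import Vale.Agent.P159.TM.H60.Clus

/-!
P159, T1, rows B1/B2 (helper459): the event `O_x^+` in path-blocking form, deterministic part.

`s t : E → V` end points, `D : V → ℤ` the odd field (`d = h - h'`, or `h` for one copy),
`om : Finset E` the open edges.
-/

open Finset

set_option linter.unusedSectionVars false

namespace Vale.Agent.P159.TM.H459

open Vale.Agent.P159.TM.H60

section
variable {V E : Type*} [Fintype V] [DecidableEq V] [Fintype E] [DecidableEq E]

/-- the open edges with positive values at both ends -/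
def plusE (s t : E → V) (D : V → ℤ) (om : Finset E) : Finset E :=
  om.filter (fun e => 0 < D (s e) ∧ 0 < D (t e))

/-- every chain of neighbours from `B1` to the complement of `B2` meets `K` -/
def Blk (s t : E → V) (B1 B2 K : Finset V) : Prop :=
  ∀ p ∈ B1, ∀ q ∉ B2,
    ¬ Relation.ReflTransGen (fun y z => Adj s t univ y z ∧ y ∉ K ∧ z ∉ K) p q

/-- the cluster of `u` in the positive open edges inside `B4` -/
noncomputable def Kc (s t : E → V) (B4 : Finset V) (D : V → ℤ) (om : Finset E) (u : V) :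
    Finset V := clus s t (plusE s t D om ∩ inE s t B4) u

/-- the event `O⁺`: a positive cluster inside `B4` has mass at least `μ` and separates `B1` from
the complement of `B2` -/
def OEv (s t : E → V) (B1 B2 B4 : Finset V) (μ : ℕ) (D : V → ℤ) (om : Finset E) : Prop :=
  ∃ u ∈ B4, 0 < D u ∧ μ ≤ ∑ z ∈ Kc s t B4 D om u, (D z).natAbs ∧
    Blk s t B1 B2 (Kc s t B4 D om u)

variable {s t : E → V} {B1 B2 B4 : Finset V} {μ : ℕ} {D D' : V → ℤ} {om om' : Finset E}

theorem mem_plusE {e : E} : e ∈ plusE s t D om ↔ e ∈ om ∧ 0 < D (s e) ∧ 0 < D (t e) := by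
  simp [plusE]

theorem plusE_sub : plusE s t D om ⊆ om := Finset.filter_subset _ _

theorem plusE_mono (hD : ∀ v, D v ≤ D' v) (h : om ⊆ om') : plusE s t D om ⊆ plusE s t D' om' := by
  intro e he
  rw [mem_plusE] at he ⊢
  exact ⟨h he.1, lt_of_lt_of_le he.2.1 (hD _), lt_of_lt_of_le he.2.2 (hD _)⟩

theorem plusE_eq_self (h : ∀ e ∈ om, 0 < D (s e) ∧ 0 < D (t e)) : plusE s t D om = om :=
  Finset.filter_true_of_mem h

theorem plusE_idem : plusE s t D (plusE s t D om) = plusE s t D om :=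
  plusE_eq_self fun _ he => (mem_plusE.1 he).2

theorem Blk.mono {K K' : Finset V} (h : K ⊆ K') (hb : Blk s t B1 B2 K) : Blk s t B1 B2 K' := by
  intro p hp q hq hc
  refine hb p hp q hq (Relation.ReflTransGen.mono ?_ _ _ hc)
  rintro y z ⟨h1, h2, h3⟩
  exact ⟨h1, fun h4 => h2 (h h4), fun h4 => h3 (h h4)⟩

theorem clus_mono {S S' : Finset E} (h : S ⊆ S') (u : V) : clus s t S u ⊆ clus s t S' u := by
  intro z hz
  rw [mem_clus] at hz ⊢
  exact hz.mono h

theorem clus_eq_of_mem {S : Finset E} {u z : V} (h : z ∈ clus s t S u) :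
    clus s t S z = clus s t S u := by
  rw [mem_clus] at h
  ext y
  rw [mem_clus, mem_clus]
  exact ⟨fun h' => h.trans h', fun h' => h.symm.trans h'⟩

theorem clus_sub {S : Finset E} {u : V} (hu : u ∈ B4) : clus s t (S ∩ inE s t B4) u ⊆ B4 := by
  intro z hz
  rw [mem_clus] at hz
  unfold Conn at hz
  induction hz with
  | refl => exact hu
  | @tail y z _ h2 _ =>
    obtain ⟨e, he, h3⟩ := h2
    have h4 := mem_inE.1 (Finset.mem_inter.1 he).2
    rcases h3 with ⟨_, h6⟩ | ⟨h5, _⟩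
    · rw [← h6]; exact h4.2
    · rw [← h5]; exact h4.1

/-- positivity on a cluster of positive edges -/
theorem pos_of_conn {S : Finset E} (hS : ∀ e ∈ S, 0 < D (s e) ∧ 0 < D (t e)) {u z : V}
    (hu : 0 < D u) (h : Conn s t S u z) : 0 < D z := by
  unfold Conn at h
  induction h with
  | refl => exact hu
  | @tail y z _ h2 _ =>
    obtain ⟨e, he, h3⟩ := h2
    have h4 := hS e he
    rcases h3 with ⟨_, h6⟩ | ⟨h5, _⟩
    · rw [← h6]; exact h4.2
    · rw [← h5]; exact h4.1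

theorem Kc_sub {u : V} (hu : u ∈ B4) : Kc s t B4 D om u ⊆ B4 := clus_sub hu

theorem Kc_pos {u z : V} (hu : 0 < D u) (hz : z ∈ Kc s t B4 D om u) : 0 < D z := by
  refine pos_of_conn (s := s) (t := t) (S := plusE s t D om ∩ inE s t B4) (fun e he => ?_) hu
    (mem_clus.1 hz)
  exact (mem_plusE.1 (Finset.mem_inter.1 he).1).2

theorem Kc_mono (hD : ∀ v, D v ≤ D' v) (h : om ⊆ om') (u : V) :
    Kc s t B4 D om u ⊆ Kc s t B4 D' om' u :=
  clus_mono (Finset.inter_subset_inter_right (plusE_mono hD h)) u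

theorem natAbs_le_of_pos {a b : ℤ} (ha : 0 < a) (h : a ≤ b) : a.natAbs ≤ b.natAbs := by omega

/-- **`O⁺` is increasing in `(D, om)`** -/
theorem OEv_mono (hD : ∀ v, D v ≤ D' v) (h : om ⊆ om') (hO : OEv s t B1 B2 B4 μ D om) :
    OEv s t B1 B2 B4 μ D' om' := by
  obtain ⟨u, hu, hpos, hmass, hblk⟩ := hO
  refine ⟨u, hu, lt_of_lt_of_le hpos (hD u), ?_, hblk.mono (Kc_mono hD h u)⟩
  calc μ ≤ ∑ z ∈ Kc s t B4 D om u, (D z).natAbs := hmass
    _ ≤ ∑ z ∈ Kc s t B4 D om u, (D' z).natAbs :=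
        Finset.sum_le_sum fun z hz => natAbs_le_of_pos (Kc_pos hpos hz) (hD z)
    _ ≤ ∑ z ∈ Kc s t B4 D' om' u, (D' z).natAbs :=
        Finset.sum_le_sum_of_subset (Kc_mono hD h u)

theorem OEv_mono_mass {μ' : ℕ} (h : μ' ≤ μ) (hO : OEv s t B1 B2 B4 μ D om) :
    OEv s t B1 B2 B4 μ' D om := by
  obtain ⟨u, hu, hpos, hmass, hblk⟩ := hO
  exact ⟨u, hu, hpos, h.trans hmass, hblk⟩

/-- only the positive edges count -/
theorem OEv_plus : OEv s t B1 B2 B4 μ D (plusE s t D om) ↔ OEv s t B1 B2 B4 μ D om := by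
  unfold OEv Kc
  rw [plusE_idem]

theorem plusE_congr (hD : ∀ v ∈ B4, D v = D' v) (h : om ∩ inE s t B4 = om' ∩ inE s t B4) :
    plusE s t D om ∩ inE s t B4 = plusE s t D' om' ∩ inE s t B4 := by
  ext e
  rw [Finset.mem_inter, Finset.mem_inter, mem_plusE, mem_plusE]
  have h1 : e ∈ om ∧ e ∈ inE s t B4 ↔ e ∈ om' ∧ e ∈ inE s t B4 := by
    rw [← Finset.mem_inter, ← Finset.mem_inter, h]
  constructor
  · rintro ⟨⟨h2, h3, h4⟩, h5⟩
    have h6 := mem_inE.1 h5
    rw [hD _ h6.1] at h3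
    rw [hD _ h6.2] at h4
    exact ⟨⟨(h1.1 ⟨h2, h5⟩).1, h3, h4⟩, h5⟩
  · rintro ⟨⟨h2, h3, h4⟩, h5⟩
    have h6 := mem_inE.1 h5
    rw [← hD _ h6.1] at h3
    rw [← hD _ h6.2] at h4
    exact ⟨⟨(h1.2 ⟨h2, h5⟩).1, h3, h4⟩, h5⟩

/-- **`O⁺` depends only on the field and on the open edges inside `B4`** -/
theorem OEv_congr (hD : ∀ v ∈ B4, D v = D' v) (h : om ∩ inE s t B4 = om' ∩ inE s t B4) :
    OEv s t B1 B2 B4 μ D om ↔ OEv s t B1 B2 B4 μ D' om' := by
  have hK : ∀ u, Kc s t B4 D om u = Kc s t B4 D' om' u := by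
    intro u
    unfold Kc
    rw [plusE_congr hD h]
  unfold OEv
  refine exists_congr fun u => and_congr_right fun hu => ?_
  rw [hK u, hD u hu]
  have : ∑ z ∈ Kc s t B4 D' om' u, (D z).natAbs = ∑ z ∈ Kc s t B4 D' om' u, (D' z).natAbs :=
    Finset.sum_congr rfl fun z hz => by rw [hD z (Kc_sub hu hz)]
  rw [this]

/-- a cluster which meets `B1` and reaches outside `B2` meets a blocking set -/
theorem meets_of_blk {K : Finset V} (hb : Blk s t B1 B2 K) {T : Finset E} {u p q : V}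
    (hp : p ∈ B1) (hpc : p ∈ clus s t T u) (hq : q ∉ B2) (hqc : q ∈ clus s t T u) :
    ∃ z ∈ K, z ∈ clus s t T u := by
  by_contra hcon
  push Not at hcon
  have hcon' : ∀ z ∈ clus s t T u, z ∉ K := fun z hz hzK => hcon z hzK hz
  apply hb p hp q hq
  have hpq : Conn s t T p q := (mem_clus.1 hpc).symm.trans (mem_clus.1 hqc)
  have hup := mem_clus.1 hpc
  clear hq hqc
  unfold Conn at hpq
  induction hpq with
  | refl => exact Relation.ReflTransGen.refl
  | @tail y z h1 h2 ih =>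
    refine ih.tail ⟨?_, ?_, ?_⟩
    · obtain ⟨e, _, h3⟩ := h2
      exact ⟨e, Finset.mem_univ e, h3⟩
    · exact hcon' y (mem_clus.2 (hup.trans h1))
    · exact hcon' z (mem_clus.2 (hup.trans (Relation.ReflTransGen.tail h1 h2)))

/-- **forcing**: on `O⁺` a positive cluster which meets `B1` and reaches outside `B2` has mass at
least `μ` in `B4`; `T` is the set of positive open edges -/
theorem force {T : Finset E} (hO : OEv s t B1 B2 B4 μ D T) {u : V}
    (h1 : ∃ p ∈ B1, p ∈ clus s t T u) (h2 : ∃ q, q ∉ B2 ∧ q ∈ clus s t T u) :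
    μ ≤ ∑ z ∈ B4, if z ∈ clus s t T u then (D z).natAbs else 0 := by
  obtain ⟨w, hw, hpos, hmass, hblk⟩ := hO
  obtain ⟨p, hp, hpc⟩ := h1
  obtain ⟨q, hq, hqc⟩ := h2
  obtain ⟨z, hzK, hzC⟩ := meets_of_blk hblk hp hpc hq hqc
  have hsub : Kc s t B4 D T w ⊆ clus s t T u := by
    have h3 : Kc s t B4 D T w ⊆ clus s t T w :=
      clus_mono (Finset.inter_subset_left.trans plusE_sub) w
    have h4 : clus s t T w = clus s t T u := by
      rw [← clus_eq_of_mem (h3 hzK), clus_eq_of_mem hzC]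
    rwa [h4] at h3
  refine hmass.trans ?_
  rw [← Finset.sum_filter]
  refine Finset.sum_le_sum_of_subset fun y hy => ?_
  rw [Finset.mem_filter]
  exact ⟨Kc_sub hw hy, hsub hy⟩

end

end Vale.Agent.P159.TM.H459
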