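import Vale.Agent.P159.TM.H459.Ev
import Vale.Agent.P159.TM.H576.Fat

/-!
P159, T1, row B1 (helper459): the event `O⁺` on a system, and fatness with it.
-/

open Finset
open scoped ENNReal

set_option linter.unusedSectionVars false
set_option linter.unusedDecidableInType false

namespace Vale.Agent.P159.TM.H459

open Vale.Agent.P159.TM.H60 Vale.Agent.P159.TM.H576

section
variable {V E S : Type*} [Fintype V] [DecidableEq V] [Fintype E] [DecidableEq E]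

/-- the event `O⁺` on a system -/
def OS (σ : Sys V E S) (B1 B2 B4 : Finset V) (μ : ℕ) (x : V → S) (om : Finset E) : Prop :=
  OEv σ.s σ.t B1 B2 B4 μ (fun v => σ.d (x v)) om

variable {σ : Sys V E S} {B1 B2 B4 : Finset V} {μ : ℕ} {le : S → S → Prop}

theorem OS_mono (hd : ∀ x y, le x y → σ.d x ≤ σ.d y) : MonoE le (OS σ B1 B2 B4 μ) :=
  fun _ _ _ _ h ho hO => OEv_mono (fun v => hd _ _ (h v)) ho hO

theorem plus_eq (x : V → S) (om : Finset E) :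
    plus σ x om = plusE σ.s σ.t (fun v => σ.d (x v)) om := rfl

theorem OS_plus (x : V → S) (om : Finset E) :
    OS σ B1 B2 B4 μ x (plus σ x om) ↔ OS σ B1 B2 B4 μ x om := by
  unfold OS
  rw [plus_eq]
  exact OEv_plus

/-- `O⁺` depends only on the states and on the open edges inside `B4` -/
theorem OS_congr {x x' : V → S} {om om' : Finset E} (hx : ∀ v ∈ B4, σ.d (x v) = σ.d (x' v))
    (h : om ∩ inE σ.s σ.t B4 = om' ∩ inE σ.s σ.t B4) :
    OS σ B1 B2 B4 μ x om ↔ OS σ B1 B2 B4 μ x' om' := OEv_congr hx h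

/-- forcing, in the form of `H576.fat` -/
theorem OS_force {Γ : (V → ℕ) → ℝ≥0∞}
    (hΓ : ∀ m, Γ m ≠ 0 → (∃ z ∈ B1, m z ≠ 0) ∧ ∃ z, z ∉ B2 ∧ m z ≠ 0)
    {u : V} {x : V → S} {T : Finset E} (hO : OS σ B1 B2 B4 μ x T) (h0 : Γ (mf σ x T u) ≠ 0) :
    (μ : ℝ≥0∞) ≤ ∑ z ∈ B4, (mf σ x T u z : ℝ≥0∞) := by
  classical
  have hmem : ∀ z, mf σ x T u z ≠ 0 → z ∈ clus σ.s σ.t T u := by
    intro z hz
    by_contra hc
    apply hz
    unfold mf
    rw [if_neg hc]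
  obtain ⟨⟨p, hp, hpm⟩, q, hq, hqm⟩ := hΓ _ h0
  have h1 := force hO (u := u) ⟨p, hp, hmem p hpm⟩ ⟨q, hq, hmem q hqm⟩
  have h2 : (μ : ℝ≥0∞) ≤
      ((∑ z ∈ B4, if z ∈ clus σ.s σ.t T u then (σ.d (x z)).natAbs else 0 : ℕ) : ℝ≥0∞) := by
    exact_mod_cast h1
  refine h2.trans (le_of_eq ?_)
  rw [Nat.cast_sum]
  refine Finset.sum_congr rfl fun z _ => ?_
  unfold mf
  by_cases hz : z ∈ clus σ.s σ.t T u
  · simp only [hz, if_true]
  · simp only [hz, if_false]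

/-- **fatness with the event `O⁺`** -/
theorem fat_O (M : Fk σ le) {Γ : (V → ℕ) → ℝ≥0∞} (hΓm : Monotone Γ) {u : V}
    (hΓ0 : ∀ m, m u = 0 → Γ m = 0)
    (hΓ : ∀ m, Γ m ≠ 0 → (∃ z ∈ B1, m z ≠ 0) ∧ ∃ z, z ∉ B2 ∧ m z ≠ 0) {p : ℝ≥0∞}
    (hp : p * Ex σ (fun _ _ => 1) ≤ Ex σ (fun x om => ind (OS σ B1 B2 B4 μ x om))) :
    p * μ * Ex σ (fun x om => Γ (mf σ x om u)) ≤
      Ex σ (fun x om => Γ (mf σ x om u) * ∑ z ∈ B4, (mf σ x om u z : ℝ≥0∞)) := by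
  refine fat M hΓm hΓ0 (O := OS σ B1 B2 B4 μ) (OS_mono M.hd) (p := p) (μ := (μ : ℝ≥0∞)) ?_ ?_
  · refine hp.trans (le_of_eq ?_)
    congr 1
    funext x om
    exact ind_congr (OS_plus x om).symm
  · intro x T _ hO _ h0
    exact OS_force hΓ hO h0

end

end Vale.Agent.P159.TM.H459
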