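import Vale.Agent.P159.TM.H857.Boot

/-!
P159, T1, rows B2 + B3 (helper459): hypothesis (H1) of the bootstrap `H857.bootstrap`, abstract form.

A background which is constant off a ball of radius `m₀ / l` around `x`, with values within `m₀` of
`f x`, has `U f ≤ K/4 + (K + a Cg) m₀² / 2`; hence its law of the pair event is close to the law
with zero background.
-/

open Finset

set_option linter.unusedSectionVars false

namespace Vale.Agent.P159.TM.H459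

open Vale.Agent.P159.TM.H857

variable {V E : Type*} [Fintype V] [Fintype E]

/-- the energy of a function of slope `l` and of range `m₀`, supported in a ball of radius `m₀/l` -/
theorem energy_le {s t : E → V} {d : V → V → ℝ} (hadj : ∀ e, d (s e) (t e) ≤ 1)
    {Cg : ℝ} (x : V)
    (hcnt : ∀ ρ : ℝ, 1 ≤ ρ →
      ((univ.filter fun e => d x (s e) < ρ ∨ d x (t e) < ρ).card : ℝ) ≤ Cg * ρ ^ 2)
    {l m₀ : ℝ} (hl : 0 < l) (hlm : l ≤ m₀) {g : V → ℝ} (hg : Lip d l g)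
    (hz : ∀ z, m₀ ≤ l * d x z → g z = 0) :
    ∑ e, (g (t e) - g (s e)) ^ 2 ≤ Cg * m₀ ^ 2 := by
  classical
  have hm₀ : 0 < m₀ := lt_of_lt_of_le hl hlm
  set A : Finset E := univ.filter fun e => d x (s e) < m₀ / l ∨ d x (t e) < m₀ / l with hA
  have h1 : ∀ e, e ∉ A → (g (t e) - g (s e)) ^ 2 = 0 := by
    intro e he
    rw [hA, Finset.mem_filter, not_and_or, not_or] at he
    rcases he with he | ⟨h2, h3⟩
    · exact absurd (Finset.mem_univ e) he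
    · rw [not_lt, div_le_iff₀ hl] at h2 h3
      rw [hz (s e) (by linarith), hz (t e) (by linarith)]
      ring
  have h2 : ∀ e ∈ A, (g (t e) - g (s e)) ^ 2 ≤ l ^ 2 := by
    intro e _
    have h3 := hg (s e) (t e)
    have h4 : |g (s e) - g (t e)| ≤ l := h3.trans (by
      have := mul_le_mul_of_nonneg_left (hadj e) hl.le
      linarith)
    have h5 : (g (t e) - g (s e)) ^ 2 = |g (s e) - g (t e)| ^ 2 := by rw [sq_abs]; ring
    rw [h5]
    exact pow_le_pow_left₀ (abs_nonneg _) h4 2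
  calc ∑ e, (g (t e) - g (s e)) ^ 2 = ∑ e ∈ A, (g (t e) - g (s e)) ^ 2 :=
        (Finset.sum_subset (Finset.subset_univ A) fun e _ he => h1 e he).symm
    _ ≤ ∑ _e ∈ A, l ^ 2 := Finset.sum_le_sum h2
    _ = (A.card : ℝ) * l ^ 2 := by rw [Finset.sum_const, nsmul_eq_mul]
    _ ≤ Cg * (m₀ / l) ^ 2 * l ^ 2 := by
        refine mul_le_mul_of_nonneg_right (hcnt _ ?_) (sq_nonneg l)
        rw [le_div_iff₀ hl]
        linarith
    _ = Cg * m₀ ^ 2 := by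
        field_simp

/-- the value of `U` at a clamped background -/
theorem U_le {s t : E → V} {d : V → V → ℝ} (hadj : ∀ e, d (s e) (t e) ≤ 1)
    {Cg : ℝ} (x : V)
    (hcnt : ∀ ρ : ℝ, 1 ≤ ρ →
      ((univ.filter fun e => d x (s e) < ρ ∨ d x (t e) < ρ).card : ℝ) ≤ Cg * ρ ^ 2)
    {U : (V → ℝ) → ℝ} {K κ a : ℝ} (hκ : 0 ≤ κ) (ha : 0 ≤ a)
    (hK : κ * Fintype.card V ≤ K)
    (hosc : ∀ (f : V → ℝ) (c : ℝ), U (fun z => f z + c) ≤ U f + K / 4)
    (hquad : ∀ g : V → ℝ, U g ≤ (κ * ∑ z, g z ^ 2 + a * ∑ e, (g (t e) - g (s e)) ^ 2) / 2)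
    {l m₀ : ℝ} (hl : 0 < l) (hlm : l ≤ m₀) {f : V → ℝ} (hf : Lip d l f)
    (hr : ∀ z, |f z - f x| ≤ m₀) (hz : ∀ z, m₀ ≤ l * d x z → f z = f x) :
    U f ≤ K / 4 + (K + a * Cg) * m₀ ^ 2 / 2 := by
  have h0 : U f = U (fun z => (f z - f x) + f x) := by
    congr 1
    funext z
    ring
  have h1 := hosc (fun z => f z - f x) (f x)
  have h2 := hquad fun z => f z - f x
  have h3 : ∑ e, ((fun z => f z - f x) (t e) - (fun z => f z - f x) (s e)) ^ 2 ≤ Cg * m₀ ^ 2 := by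
    refine energy_le hadj x hcnt hl hlm (g := fun z => f z - f x) ?_ ?_
    · intro z w
      have := hf z w
      simpa using this
    · intro z hz'
      rw [hz z hz']
      ring
  have h4 : ∑ z, (f z - f x) ^ 2 ≤ Fintype.card V * m₀ ^ 2 := by
    calc ∑ z, (f z - f x) ^ 2 ≤ ∑ _z : V, m₀ ^ 2 := by
          refine Finset.sum_le_sum fun z _ => ?_
          rw [← sq_abs]
          exact pow_le_pow_left₀ (abs_nonneg _) (hr z) 2
      _ = Fintype.card V * m₀ ^ 2 := by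
          rw [Finset.sum_const, nsmul_eq_mul, Finset.card_univ]
  have h5 : κ * ∑ z, (f z - f x) ^ 2 ≤ K * m₀ ^ 2 := by
    calc κ * ∑ z, (f z - f x) ^ 2 ≤ κ * (Fintype.card V * m₀ ^ 2) :=
          mul_le_mul_of_nonneg_left h4 hκ
      _ = κ * Fintype.card V * m₀ ^ 2 := by ring
      _ ≤ K * m₀ ^ 2 := mul_le_mul_of_nonneg_right hK (sq_nonneg _)
  have h6 := mul_le_mul_of_nonneg_left h3 ha
  rw [h0]
  simp only at h1 h2 h6
  nlinarith

/-- **(H1) of the bootstrap** (rows B2 + B3): constants and one clamp of height `m₀`.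
`hE4` = E4, `hosc` = E1, `hquad` = output of theorem A. -/
theorem boot_H1 {s t : E → V} {d : V → V → ℝ} (hadj : ∀ e, d (s e) (t e) ≤ 1)
    {Cg : ℝ} (hcnt : ∀ (x : V) (ρ : ℝ), 1 ≤ ρ →
      ((univ.filter fun e => d x (s e) < ρ ∨ d x (t e) < ρ).card : ℝ) ≤ Cg * ρ ^ 2)
    {U : (V → ℝ) → ℝ} {K κ a : ℝ} (hκ : 0 ≤ κ) (ha : 0 ≤ a)
    (hK : κ * Fintype.card V ≤ K)
    (hosc : ∀ (f : V → ℝ) (c : ℝ), U (fun z => f z + c) ≤ U f + K / 4)
    (hquad : ∀ g : V → ℝ, U g ≤ (κ * ∑ z, g z ^ 2 + a * ∑ e, (g (t e) - g (s e)) ^ 2) / 2)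
    {P : (V → ℝ) → V → ℝ} {c₀ L m₀ : ℝ} (hc₀ : 0 ≤ c₀) (hLm : L ≤ m₀)
    (hP0 : ∀ x, c₀ ≤ P 0 x)
    (hE4 : ∀ f x, |P f x - P 0 x| ≤ Real.sqrt (Real.exp (4 * U f) - 1))
    (hsmall : Real.exp (K + 2 * (K + a * Cg) * m₀ ^ 2) ≤ 1 + (c₀ / 8) ^ 2)
    (l : ℝ) (hl : 0 < l) (hlL : l ≤ L) (f : V → ℝ) (x : V) (hf : Lip d l f)
    (hr : ∀ z, |f z - f x| ≤ m₀) (hz : ∀ z, m₀ ≤ l * d x z → f z = f x) :
    7 / 8 * c₀ ≤ P f x := by
  have h1 := U_le hadj x (hcnt x) hκ ha hK hosc hquad hl (hlL.trans hLm) hf hr hz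
  have h2 : Real.exp (4 * U f) - 1 ≤ (c₀ / 8) ^ 2 := by
    have h3 : Real.exp (4 * U f) ≤ Real.exp (K + 2 * (K + a * Cg) * m₀ ^ 2) := by
      apply Real.exp_le_exp.2
      linarith
    linarith
  have h3 : Real.sqrt (Real.exp (4 * U f) - 1) ≤ c₀ / 8 := by
    have h4 := Real.sqrt_le_sqrt h2
    rwa [Real.sqrt_sq (by linarith)] at h4
  have h4 := (abs_le.1 ((hE4 f x).trans h3)).1
  have h5 := hP0 x
  linarith

/-- row B2 alone: constants -/
theorem const_le {U : (V → ℝ) → ℝ} {K : ℝ} (hU0 : U 0 = 0)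
    (hosc : ∀ (f : V → ℝ) (c : ℝ), U (fun z => f z + c) ≤ U f + K / 4) (hK1 : K ≤ 1)
    (hK0 : 0 ≤ K)
    {P : (V → ℝ) → V → ℝ}
    (hE4 : ∀ f x, |P f x - P 0 x| ≤ Real.sqrt (Real.exp (4 * U f) - 1)) (c : ℝ) (x : V) :
    |P (fun _ => c) x - P 0 x| ≤ Real.sqrt (2 * K) := by
  refine (hE4 _ x).trans (Real.sqrt_le_sqrt ?_)
  have h1 := hosc 0 c
  rw [hU0] at h1
  simp only [Pi.zero_apply, zero_add] at h1
  have h2 : Real.exp (4 * U fun _ => c) ≤ Real.exp K := Real.exp_le_exp.2 (by linarith)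
  have h3 : Real.exp K ≤ 1 + 2 * K := by
    have h4 := Real.abs_exp_sub_one_le (x := K) (by rw [abs_of_nonneg hK0]; exact hK1)
    rw [abs_of_nonneg hK0] at h4
    have h5 := (abs_le.1 h4).2
    linarith
  linarith

end Vale.Agent.P159.TM.H459
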